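import Vale.Agent.P052.R3.H373.Main

/-!
The final statements: linear excess in every dimension from 9 on.
-/

namespace Vale.Agent.P052.H373

theorem main1 (d : ℕ) (hd : 9 ≤ d) :
    ∃ Y : Set (EuclideanSpace ℝ (Fin d)), OnSmallSphere Y ∧
      (d + 1) + (d + 1) / 10 ≤ borsukNumber Y := by
  obtain ⟨Y, h1, h2⟩ := main2 0 ((d + 1) / 10) ((d + 1) % 10) d (by omega) (by omega)
  exact ⟨Y, h1, by omega⟩

theorem main3 (d : ℕ) (hd : 9 ≤ d) :
    ∃ Y : Set (EuclideanSpace ℝ (Fin d)), OnSmallSphere Y ∧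
      (d + 1) + 18 * ((d + 1) / 66) + ((d + 1) % 66) / 10 ≤ borsukNumber Y := by
  obtain ⟨Y, h1, h2⟩ := main2 ((d + 1) / 66) (((d + 1) % 66) / 10) (((d + 1) % 66) % 10) d
    (by omega) (by omega)
  exact ⟨Y, h1, by omega⟩

end Vale.Agent.P052.H373
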