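import Vale.Agent.P052.R2.H97.Stmt
import Vale.Agent.P052.H515.Join

/-!
The join of two compact sets on small spheres: `Good d₁ k₁` and `Good d₂ k₂` give
`Good (d₁ + d₂ + 1) (k₁ + k₂)`.
-/

namespace Vale.Agent.P052.H373

open Metric P052.H97
open Vale.Agent.P052.H515 (appE dist_appE_sq)

/-- the covering property: every cover of `Y` by sets of diameter at most some `δ < D` has at
least `k` members. -/
def CovB {d : ℕ} (Y : Set (EuclideanSpace ℝ (Fin d))) (D : ℝ) (k : ℕ) : Prop :=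
  ∀ (m : ℕ) (P : Fin m → Set (EuclideanSpace ℝ (Fin d))) (δ : ℝ), δ < D →
    (∀ i, ∀ y ∈ P i, ∀ z ∈ P i, dist y z ≤ δ) → Y ⊆ (⋃ i, P i) → k ≤ m

theorem CovB.card {d : ℕ} {Y : Set (EuclideanSpace ℝ (Fin d))} {D : ℝ} {k : ℕ}
    (h : CovB Y D k) {ι : Type} [Fintype ι] (P : ι → Set (EuclideanSpace ℝ (Fin d)))
    (δ : ℝ) (hδ : δ < D)
    (h1 : ∀ i, ∀ y ∈ P i, ∀ z ∈ P i, dist y z ≤ δ) (h2 : Y ⊆ (⋃ i, P i)) :
    k ≤ Fintype.card ι := by
  apply h (Fintype.card ι) (fun i => P ((Fintype.equivFin ι).symm i)) δ hδ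
  · intro i y hy z hz
    exact h1 _ y hy z hz
  · intro y hy
    obtain ⟨i, hi⟩ := Set.mem_iUnion.mp (h2 hy)
    exact Set.mem_iUnion.mpr ⟨Fintype.equivFin ι i, by simpa using hi⟩

/-- normal form of `Good`: centre `0` and `D = 1`. -/
theorem normalB {d k : ℕ} (h : Good d k) :
    ∃ (Y : Set (EuclideanSpace ℝ (Fin d))) (r : ℝ), IsCompact Y ∧ 0 ≤ r ∧ 2 * r < 1 ∧
      (∀ y ∈ Y, dist y 0 ^ 2 = r) ∧ (∀ y ∈ Y, ∀ z ∈ Y, dist y z ≤ 1) ∧ CovB Y 1 k := by
  obtain ⟨Y, D, ρ, c, hcpt, hD, hρ, hc, hle, hcov⟩ := h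
  have hD0 : D ≠ 0 := hD.ne'
  let f : EuclideanSpace ℝ (Fin d) → EuclideanSpace ℝ (Fin d) := fun y => D⁻¹ • (y - c)
  have hfc : Continuous f := by
    show Continuous fun y => D⁻¹ • (y - c)
    fun_prop
  have hf : ∀ y z, dist (f y) (f z) = D⁻¹ * dist y z := by
    intro y z
    simp only [f]
    rw [dist_smul₀, Real.norm_eq_abs, abs_of_pos (inv_pos.mpr hD), dist_sub_right]
  have hf0 : ∀ y, dist (f y) 0 = D⁻¹ * dist y c := by
    intro y
    have h1 : f c = 0 := by simp [f]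
    rw [← h1, hf]
  refine ⟨f '' Y, (D⁻¹ * ρ) ^ 2, hcpt.image hfc, sq_nonneg _, ?_, ?_, ?_, ?_⟩
  · have h1 : (D⁻¹ * ρ) ^ 2 * D ^ 2 = ρ ^ 2 := by field_simp
    have h2 : 0 < D ^ 2 := by positivity
    by_contra hcon
    push Not at hcon
    nlinarith
  · rintro _ ⟨y, hy, rfl⟩
    rw [hf0, mul_pow, hc y hy, mul_pow]
  · rintro _ ⟨y, hy, rfl⟩ _ ⟨z, hz, rfl⟩
    rw [hf]
    calc D⁻¹ * dist y z ≤ D⁻¹ * D :=
          mul_le_mul_of_nonneg_left (hle y hy z hz) (inv_pos.mpr hD).le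
      _ = 1 := inv_mul_cancel₀ hD0
  · intro m P δ hδ hP hsub
    apply hcov m (fun i => f ⁻¹' (P i)) (D * δ)
    · calc D * δ < D * 1 := mul_lt_mul_of_pos_left hδ hD
        _ = D := mul_one D
    · intro i y hy z hz
      have h1 := hP i _ hy _ hz
      rw [hf] at h1
      have h2 : D * (D⁻¹ * dist y z) ≤ D * δ := mul_le_mul_of_nonneg_left h1 hD.le
      rwa [← mul_assoc, mul_inv_cancel₀ hD0, one_mul] at h2
    · intro y hy
      obtain ⟨i, hi⟩ := Set.mem_iUnion.mp (hsub ⟨y, hy, rfl⟩)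
      exact Set.mem_iUnion.mpr ⟨i, hi⟩

/-- **Join theorem** for compact sets. -/
theorem joinB {d₁ k₁ d₂ k₂ : ℕ} (h₁ : Good d₁ k₁) (h₂ : Good d₂ k₂) :
    Good (d₁ + d₂ + 1) (k₁ + k₂) := by
  classical
  obtain ⟨Y, a, hYf, ha0, ha, hYc, hYd, hYk⟩ := normalB h₁
  obtain ⟨Z, b, hZf, hb0, hb, hZc, hZd, hZk⟩ := normalB h₂
  have hpos : 0 < 1 - a - b := by linarith
  set t : ℝ := Real.sqrt (1 - a - b) with ht
  have htpos : 0 < t := Real.sqrt_pos.mpr hpos
  have htsq : t ^ 2 = 1 - a - b := Real.sq_sqrt hpos.le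
  let s : ℝ := (1 - 2 * a) / (2 * t)
  have hs : 2 * t * s = 1 - 2 * a := by
    simp only [s]
    field_simp
  let A : EuclideanSpace ℝ (Fin d₁) → EuclideanSpace ℝ (Fin (d₁ + d₂ + 1)) :=
    fun y => snocE (appE y 0) 0
  let B : EuclideanSpace ℝ (Fin d₂) → EuclideanSpace ℝ (Fin (d₁ + d₂ + 1)) :=
    fun z => snocE (appE 0 z) t
  have hAA : ∀ y y', dist (A y) (A y') = dist y y' := by
    intro y y'
    have h1 : dist (A y) (A y') ^ 2 = dist y y' ^ 2 := by
      simp only [A]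
      rw [dist_snocE_sq, dist_appE_sq, dist_self]
      ring
    exact (pow_left_inj₀ dist_nonneg dist_nonneg (by norm_num)).mp h1
  have hBB : ∀ z z', dist (B z) (B z') = dist z z' := by
    intro z z'
    have h1 : dist (B z) (B z') ^ 2 = dist z z' ^ 2 := by
      simp only [B]
      rw [dist_snocE_sq, dist_appE_sq, dist_self]
      ring
    exact (pow_left_inj₀ dist_nonneg dist_nonneg (by norm_num)).mp h1
  have hAc : Continuous A := (Isometry.of_dist_eq hAA).continuous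
  have hBc : Continuous B := (Isometry.of_dist_eq hBB).continuous
  have hAB : ∀ y ∈ Y, ∀ z ∈ Z, dist (A y) (B z) = 1 := by
    intro y hy z hz
    have h1 : dist (A y) (B z) ^ 2 = 1 ^ 2 := by
      simp only [A, B]
      rw [dist_snocE_sq, dist_appE_sq, hYc y hy, dist_comm 0 z, hZc z hz]
      linarith [htsq, sq_nonneg (0 - t), (by ring : (0 - t) ^ 2 = t ^ 2)]
    exact (pow_left_inj₀ dist_nonneg zero_le_one (by norm_num)).mp h1
  have hR : 0 ≤ a + s ^ 2 := by positivity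
  refine ⟨A '' Y ∪ B '' Z, 1, Real.sqrt (a + s ^ 2), snocE (appE 0 0) s,
    (hYf.image hAc).union (hZf.image hBc), one_pos, ?_, ?_, ?_, ?_⟩
  · rw [Real.sq_sqrt hR]
    have h1 : 4 * t ^ 2 * s ^ 2 = (1 - 2 * a) ^ 2 := by rw [← hs]; ring
    rw [htsq] at h1
    have h2 : 0 < (1 - 2 * a) * (1 - 2 * b) := mul_pos (by linarith) (by linarith)
    by_contra hcon
    push Not at hcon
    have h3 : 1 - 2 * a ≤ 2 * s ^ 2 := by linarith
    have h4 : 2 * (1 - a - b) * (1 - 2 * a) ≤ 2 * (1 - a - b) * (2 * s ^ 2) :=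
      mul_le_mul_of_nonneg_left h3 (by linarith)
    nlinarith
  · rw [Real.sq_sqrt hR]
    rintro _ (⟨y, hy, rfl⟩ | ⟨z, hz, rfl⟩)
    · simp only [A]
      rw [dist_snocE_sq, dist_appE_sq, hYc y hy, dist_self]
      ring
    · simp only [B]
      rw [dist_snocE_sq, dist_appE_sq, hZc z hz, dist_self]
      nlinarith [htsq, hs]
  · rintro _ (⟨y, hy, rfl⟩ | ⟨z, hz, rfl⟩) _ (⟨y', hy', rfl⟩ | ⟨z', hz', rfl⟩)
    · rw [hAA]; exact hYd y hy y' hy'
    · rw [hAB y hy z' hz']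
    · rw [dist_comm, hAB y' hy' z hz]
    · rw [hBB]; exact hZd z hz z' hz'
  · intro m P δ hδ hP hsub
    let I : Finset (Fin m) := Finset.univ.filter (fun i => ∃ y ∈ Y, A y ∈ P i)
    let J : Finset (Fin m) := Finset.univ.filter (fun i => ∃ z ∈ Z, B z ∈ P i)
    have hIJ : Disjoint I J := by
      rw [Finset.disjoint_left]
      intro i hi hj
      simp only [I, J, Finset.mem_filter, Finset.mem_univ, true_and] at hi hj
      obtain ⟨y, hy, hy'⟩ := hi
      obtain ⟨z, hz, hz'⟩ := hj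
      have := hP i _ hy' _ hz'
      rw [hAB y hy z hz] at this
      exact absurd hδ (not_lt.mpr this)
    have hI : k₁ ≤ I.card := by
      have := hYk.card (ι := I) (fun i => A ⁻¹' (P i.1)) δ hδ ?_ ?_
      · simpa using this
      · intro i y hy z hz
        rw [← hAA]
        exact hP i.1 _ hy _ hz
      · intro y hy
        obtain ⟨i, hi⟩ := Set.mem_iUnion.mp (hsub (Or.inl ⟨y, hy, rfl⟩))
        exact Set.mem_iUnion.mpr ⟨⟨i, by
          simp only [I, Finset.mem_filter, Finset.mem_univ, true_and]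
          exact ⟨y, hy, hi⟩⟩, hi⟩
    have hJ : k₂ ≤ J.card := by
      have := hZk.card (ι := J) (fun i => B ⁻¹' (P i.1)) δ hδ ?_ ?_
      · simpa using this
      · intro i y hy z hz
        rw [← hBB]
        exact hP i.1 _ hy _ hz
      · intro z hz
        obtain ⟨i, hi⟩ := Set.mem_iUnion.mp (hsub (Or.inr ⟨z, hz, rfl⟩))
        exact Set.mem_iUnion.mpr ⟨⟨i, by
          simp only [J, Finset.mem_filter, Finset.mem_univ, true_and]
          exact ⟨z, hz, hi⟩⟩, hi⟩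
    have h3 : (I ∪ J).card ≤ m := by
      have := Finset.card_le_univ (I ∪ J)
      simpa using this
    rw [Finset.card_union_of_disjoint hIJ] at h3
    omega

/-- finite sets are a special case. -/
theorem good_of_sphGood {d k : ℕ} (h : SphGood d k) : Good d k := by
  obtain ⟨Y, D, ρ, c, hfin, hD, hρ, hc, hle, hcov⟩ := h
  refine ⟨Y, D, ρ, c, hfin.isCompact, hD, hρ, hc, hle, ?_⟩
  intro m P δ hδ hP hsub
  exact hcov m P (fun i y hy z hz => lt_of_le_of_lt (hP i y hy z hz) hδ) hsub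

end Vale.Agent.P052.H373
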