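import Vale.Agent.P052.R2.H38.Asm
import Vale.Agent.P052.H515.Conf
import Vale.Agent.P052.R3.H373.Join

/-!
Borsuk's conjecture fails by a linear excess in every dimension from 9 on.
-/

namespace Vale.Agent.P052.H373

open Metric P052.H97

/-- `OnSmallSphere Y`: the set `Y` is compact and lies on a sphere whose radius `ρ` satisfies
`2 ρ ^ 2 < (diam Y) ^ 2`. -/
def OnSmallSphere {d : ℕ} (Y : Set (EuclideanSpace ℝ (Fin d))) : Prop :=
  IsCompact Y ∧ ∃ (c : EuclideanSpace ℝ (Fin d)) (ρ : ℝ),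
    (∀ y ∈ Y, dist y c = ρ) ∧ 2 * ρ ^ 2 < Metric.diam Y ^ 2

theorem OnSmallSphere.diam_pos {d : ℕ} {Y : Set (EuclideanSpace ℝ (Fin d))}
    (h : OnSmallSphere Y) : 0 < Metric.diam Y := by
  obtain ⟨-, c, ρ, -, h2⟩ := h
  rcases (Metric.diam_nonneg (s := Y)).eq_or_lt with h0 | h0
  · rw [← h0] at h2
    nlinarith [sq_nonneg ρ]
  · exact h0

theorem exists_cover {d : ℕ} {Y : Set (EuclideanSpace ℝ (Fin d))} (hY : Bornology.IsBounded Y)
    (hpos : 0 < Metric.diam Y) : {m : ℕ | IsSmallerCover Y m}.Nonempty := by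
  obtain ⟨t, ht, hcov⟩ := Metric.totallyBounded_iff.mp
    (hY.isCompact_closure.totallyBounded.subset subset_closure)
    (Metric.diam Y / 4) (by linarith)
  obtain ⟨n, f, -, hf⟩ := ht.fin_param
  refine ⟨n, fun i => ball (f i) (Metric.diam Y / 4) ∩ Y, ?_, ?_⟩
  · rw [← Set.iUnion_inter]
    apply Set.inter_eq_right.mpr
    intro y hy
    obtain ⟨x, hx, hyx⟩ := Set.mem_iUnion₂.mp (hcov hy)
    rw [← hf] at hx
    obtain ⟨i, rfl⟩ := hx
    exact Set.mem_iUnion.mpr ⟨i, hyx⟩
  · intro i
    refine lt_of_le_of_lt (Metric.diam_le_of_forall_dist_le (C := Metric.diam Y / 2)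
      (by linarith) ?_) (by linarith)
    intro x hx y hy
    have h1 : dist x (f i) < Metric.diam Y / 4 := hx.1
    have h2 : dist y (f i) < Metric.diam Y / 4 := hy.1
    have h3 := dist_triangle_right x y (f i)
    linarith

theorem OnSmallSphere.good {d : ℕ} {Y : Set (EuclideanSpace ℝ (Fin d))}
    (h : OnSmallSphere Y) : Good d (borsukNumber Y) := by
  have hpos := h.diam_pos
  obtain ⟨hf, c, ρ, hc, h2⟩ := h
  refine ⟨Y, Metric.diam Y, ρ, c, hf, hpos, h2, fun y hy => by rw [hc y hy],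
    fun y hy z hz => Metric.dist_le_diam_of_mem hf.isBounded hy hz, ?_⟩
  intro m P δ hδ hP hsub
  apply Nat.sInf_le
  refine ⟨fun i => P i ∩ Y, ?_, ?_⟩
  · rw [← Set.iUnion_inter]
    exact Set.inter_eq_right.mpr hsub
  · intro i
    refine lt_of_le_of_lt (Metric.diam_le_of_forall_dist_le (C := max δ 0) (le_max_right _ _) ?_)
      (max_lt hδ hpos)
    intro x hx y hy
    exact (hP i x hx.1 y hy.1).trans (le_max_left _ _)

theorem exists_small {d k : ℕ} (h : Good d k) (hk : 2 ≤ k) :
    ∃ Y : Set (EuclideanSpace ℝ (Fin d)), OnSmallSphere Y ∧ k ≤ borsukNumber Y := by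
  classical
  obtain ⟨Y, D, ρ, c, hcpt, hD, hρ, hc, hle, hcov⟩ := h
  have hbd := hcpt.isBounded
  have hdiamle : Metric.diam Y ≤ D := Metric.diam_le_of_forall_dist_le hD.le hle
  have hdiam : Metric.diam Y = D := by
    by_contra hne
    have hlt : Metric.diam Y < D := lt_of_le_of_ne hdiamle hne
    have h1 := hcov 1 (fun _ => Y) (Metric.diam Y) hlt (fun _ y hy z hz =>
      Metric.dist_le_diam_of_mem hbd hy hz) (fun y hy => Set.mem_iUnion.mpr ⟨0, hy⟩)
    omega
  have hpos : 0 < Metric.diam Y := by rw [hdiam]; exact hD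
  refine ⟨Y, ⟨hcpt, c, |ρ|, ?_, ?_⟩, ?_⟩
  · intro y hy
    have h1 := hc y hy
    rw [← sq_abs ρ] at h1
    exact (pow_left_inj₀ dist_nonneg (abs_nonneg _) (by norm_num)).mp h1
  · rw [sq_abs, hdiam]; exact hρ
  · have key : ∀ m, IsSmallerCover Y m → k ≤ m := by
      rintro m ⟨P, hP, hdP⟩
      have hsub : ∀ i, P i ⊆ Y := fun i => by
        rw [← hP]
        exact Set.subset_iUnion P i
      rcases Nat.eq_zero_or_pos m with rfl | hm
      · have h1 := hcov 0 P 0 hD (fun i => i.elim0) (by rw [hP])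
        exact h1
      · have : Nonempty (Fin m) := ⟨⟨0, hm⟩⟩
        obtain ⟨i₀, hi₀⟩ := Finite.exists_max (fun i => Metric.diam (P i))
        apply hcov m P (Metric.diam (P i₀)) (lt_of_lt_of_le (hdP i₀) hdiamle)
        · intro i y hy z hz
          exact (Metric.dist_le_diam_of_mem (hbd.subset (hsub i)) hy hz).trans (hi₀ i)
        · rw [hP]
    exact key _ (Nat.sInf_mem (exists_cover hbd hpos))

theorem one_le {d : ℕ} (Y : Set (EuclideanSpace ℝ (Fin d))) (hY : Bornology.IsBounded Y)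
    (hpos : 0 < Metric.diam Y) : 2 ≤ borsukNumber Y := by
  have h1 : IsSmallerCover Y (borsukNumber Y) := Nat.sInf_mem (exists_cover hY hpos)
  by_contra hcon
  obtain ⟨P, hP, hd⟩ := h1
  have hcon' : borsukNumber Y < 2 := not_le.mp hcon
  rcases Nat.eq_zero_or_pos (borsukNumber Y) with h0 | h0
  · have h2 : Y = ∅ := by
      rw [← hP]
      apply Set.iUnion_eq_empty.mpr
      intro i
      exact absurd i.2 (by omega)
    rw [h2, Metric.diam_empty] at hpos
    exact lt_irrefl _ hpos
  · have i0 : Fin (borsukNumber Y) := ⟨0, h0⟩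
    have h3 : P i0 = Y := by
      rw [← hP]
      apply Set.Subset.antisymm (Set.subset_iUnion P i0)
      apply Set.iUnion_subset
      intro i
      have : i = i0 := Fin.ext (by have := i.2; have := i0.2; omega)
      rw [this]
    have := hd i0
    rw [h3] at this
    exact lt_irrefl _ this

/-- **Superadditivity**: the joins. -/
theorem superadditive {d₁ d₂ : ℕ} (Y₁ : Set (EuclideanSpace ℝ (Fin d₁)))
    (Y₂ : Set (EuclideanSpace ℝ (Fin d₂))) (h₁ : OnSmallSphere Y₁) (h₂ : OnSmallSphere Y₂) :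
    ∃ Y : Set (EuclideanSpace ℝ (Fin (d₁ + d₂ + 1))), OnSmallSphere Y ∧
      borsukNumber Y₁ + borsukNumber Y₂ ≤ borsukNumber Y := by
  apply exists_small (joinB h₁.good h₂.good)
  have := one_le Y₁ h₁.1.isBounded h₁.diam_pos
  omega

theorem good9 : Good 9 11 := good_nine (core_of_data H38.not_isData)

theorem good65 : Good 65 84 := good_of_sphGood H515.sphGood65

theorem combo (a e : ℕ) (hab : 1 ≤ a + e) :
    ∃ d, d + 1 = 66 * a + 10 * e ∧ Good d (84 * a + 11 * e) := by
  induction a with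
  | zero =>
    induction e with
    | zero => omega
    | succ e ih =>
      rcases Nat.eq_zero_or_pos e with rfl | he
      · exact ⟨9, by norm_num, by simpa using good9⟩
      · obtain ⟨d, hd, hS⟩ := ih (by omega)
        refine ⟨d + 9 + 1, by omega, ?_⟩
        have := joinB hS good9
        have h : 84 * 0 + 11 * (e + 1) = 84 * 0 + 11 * e + 11 := by ring
        rw [h]; exact this
  | succ a ih =>
    rcases Nat.eq_zero_or_pos (a + e) with h0 | h0
    · have ha : a = 0 := by omega
      have he : e = 0 := by omega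
      subst ha he
      exact ⟨65, by norm_num, by simpa using good65⟩
    · obtain ⟨d, hd, hS⟩ := ih (by omega)
      refine ⟨d + 65 + 1, by omega, ?_⟩
      have := joinB hS good65
      have h : 84 * (a + 1) + 11 * e = 84 * a + 11 * e + 84 := by ring
      rw [h]; exact this

theorem combo' (a e c d : ℕ) (hab : 1 ≤ a + e) (hd : d + 1 = 66 * a + 10 * e + c) :
    Good d (84 * a + 11 * e + c) := by
  obtain ⟨n, hn, hS⟩ := combo a e hab
  obtain rfl : d = n + c := by omega
  exact hS.add c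

theorem main2 (a e c d : ℕ) (hab : 1 ≤ a + e) (hd : d + 1 = 66 * a + 10 * e + c) :
    ∃ Y : Set (EuclideanSpace ℝ (Fin d)), OnSmallSphere Y ∧
      84 * a + 11 * e + c ≤ borsukNumber Y :=
  exists_small (combo' a e c d hab hd) (by omega)

end Vale.Agent.P052.H373
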